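import Vale.Agent.P310Z.Defs
import Vale.Agent.Lib.PolyTime.Run

/-!
# P310: stack programs as RAM programs (one program for the three models)

The stacks are linked lists in the odd registers: a cell holds `2 * next + bit`. Register `2` is
the next free cell, register `4` holds `2`, the registers `6`, `8` are scratch, register
`2 * i + 10` points to the top of stack `i`.
-/

set_option linter.all false

namespace Vale.Agent.P310R43

open Function Vale.Agent.P310Z Vale.Agent.Lib.PolyTime

/-- instructions allowed in all models, no subtraction, small constants -/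
def Ok : Instr → Prop
  | .op o _ _ _ => o = .add ∨ o = .div ∨ o = .mod ∨ o = .land
  | .const _ a => a ≤ 2
  | _ => True

theorem Ok.allows {a : Instr} (h : Ok a) (M : Model) : M.Allows a := by
  cases M <;> cases a <;> simp only [Model.Allows] <;>
    rcases h with rfl | rfl | rfl | rfl <;> simp

/-- all registers are at most `K` -/
def Bd (K : ℕ) (R : ℕ → ℕ) : Prop := ∀ y, R y ≤ K

theorem Bd.upd {K : ℕ} {R : ℕ → ℕ} (h : Bd K R) (i : ℕ) {v : ℕ} (hv : v ≤ K) :
    Bd K (update R i v) := fun y => by
  rcases eq_or_ne y i with rfl | e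
  · simpa using hv
  · simpa [e] using h y

/-- at most `t` steps from line `l`, registers `R`, to line `l'`, registers `R'`, all numbers at
most `K` -/
inductive Go (P : List Instr) (x : Word) (K : ℕ) : ℕ → ℕ → (ℕ → ℕ) → ℕ → (ℕ → ℕ) → Prop
  | refl (t l R) : Go P x K t l R l R
  | step {t l R l' R' a} : P[l]? = some a → Bd K (a.regs 0 x R) →
      Go P x K t (a.next R l) (a.regs 0 x R) l' R' → Go P x K (t + 1) l R l' R'

variable {P : List Instr} {x : Word} {K : ℕ}

theorem Go.mono {t t' l R l' R'} (h : Go P x K t l R l' R') (ht : t ≤ t') :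
    Go P x K t' l R l' R' := by
  induction h generalizing t' with
  | refl => exact .refl _ _ _
  | step h1 h2 _ ih =>
    obtain ⟨u, rfl⟩ : ∃ u, t' = u + 1 := ⟨t' - 1, by omega⟩
    exact .step h1 h2 (ih (by omega))

theorem Go.trans {t t' l R l' R' l'' R''} (h : Go P x K t l R l' R')
    (h' : Go P x K t' l' R' l'' R'') : Go P x K (t + t') l R l'' R'' := by
  induction h with
  | refl => exact h'.mono (by omega)
  | step h1 h2 _ ih => exact (Go.step h1 h2 (ih h')).mono (by omega)

theorem regs_eq {a : Instr} (ha : Ok a) {m : ℕ} (hm : ∀ y ≤ K, y % m = y) {R : ℕ → ℕ}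
    (h : Bd K (a.regs 0 x R)) : a.regs m x R = a.regs 0 x R := by
  cases a with
  | const i a => have := h i; simp only [Instr.regs, Nat.mod_zero, update_self] at this ⊢; rw [hm _ this]
  | op o i j l =>
    have := h i
    rcases ha with rfl | rfl | rfl | rfl <;>
      (simp only [Instr.regs, Nat.mod_zero, update_self, Op.eval] at this ⊢; rw [hm _ this])
  | load i j => have := h i; simp only [Instr.regs, Nat.mod_zero, update_self] at this ⊢; rw [hm _ this]
  | store i j =>
    have := h (R i); simp only [Instr.regs, Nat.mod_zero, update_self] at this ⊢; rw [hm _ this]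
  | read i j => have := h i; simp only [Instr.regs, Nat.mod_zero, update_self] at this ⊢; rw [hm _ this]
  | jz i l => rfl
  | goto l => rfl

theorem cost_le {a : Instr} (ha : Ok a) (hK : 2 ≤ K) (M : Model) {R : ℕ → ℕ} (h : Bd K R) :
    M.cost R a ≤ 1 + 2 * K := by
  have hs : ∀ y, Nat.size (R y) ≤ K := fun y =>
    (Nat.size_le.2 Nat.lt_two_pow_self).trans (h y)
  cases M with
  | unit => simp [Model.cost]
  | word C => simp [Model.cost]
  | log =>
    cases a with
    | const i a =>
      have : Nat.size a ≤ a := Nat.size_le.2 Nat.lt_two_pow_self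
      have : a ≤ 2 := ha
      simp [Model.cost, Instr.operands]; omega
    | op o i j l => have := hs j; have := hs l; simp [Model.cost, Instr.operands]; omega
    | load i j => have := hs j; have := hs (R j); simp [Model.cost, Instr.operands]; omega
    | store i j => have := hs j; have := hs i; simp [Model.cost, Instr.operands]; omega
    | read i j => have := hs j; simp [Model.cost, Instr.operands]; omega
    | jz i l => have := hs i; simp [Model.cost, Instr.operands]; omega
    | goto l => simp [Model.cost, Instr.operands]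

theorem Go.run (hP : ∀ a ∈ P, Ok a) (hK : 2 ≤ K) (M : Model) (n : ℕ)
    (hm : ∀ y ≤ K, y % M.modulus n = y) {t l R l' R'} (h : Go P x K t l R l' R') (hR : Bd K R)
    (τ : ℕ) : ∃ s τ', (P310Z.step M P n x)^[s] ⟨l, R, τ⟩ = ⟨l', R', τ'⟩ ∧
      τ' ≤ τ + t * (1 + 2 * K) := by
  induction h generalizing τ with
  | refl => exact ⟨0, τ, rfl, by omega⟩
  | @step t l R l' R' a h1 h2 _ ih =>
    have ha := hP a (List.mem_of_getElem? h1)
    obtain ⟨s, τ', e, hτ⟩ := ih h2 (τ + M.cost R a)
    refine ⟨s + 1, τ', ?_, ?_⟩
    · rw [iterate_succ_apply, ← e]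
      congr 1
      simp only [P310Z.step, h1, regs_eq ha hm h2]
    · have := cost_le ha hK M hR
      rw [add_mul]
      omega

/-- the code `w` stands in `P` from line `l` on -/
def At (P : List Instr) (l : ℕ) (w : List Instr) : Prop :=
  ∀ (j : ℕ) (a : Instr), w[j]? = some a → P[l + j]? = some a

theorem At.head {l a c} (h : At P l (a :: c)) : P[l]? = some a := h 0 a rfl

theorem At.tail {l a c} (h : At P l (a :: c)) : At P (l + 1) c := fun j b e => by
  rw [add_assoc, add_comm 1 j]; exact h (j + 1) b e

theorem At.left {l c d} (h : At P l (c ++ d)) : At P l c := fun j a e =>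
  h j a (by rw [List.getElem?_append_left (List.getElem?_eq_some_iff.1 e).1]; exact e)

theorem At.right {l c d} (h : At P l (c ++ d)) : At P (l + c.length) d := fun j a e => by
  rw [add_assoc]
  exact h _ a (by rw [List.getElem?_append_right (by omega)]; simpa using e)

/-- linked lists -/
inductive L (R : ℕ → ℕ) : ℕ → Word → Prop
  | nil : L R 0 []
  | cons {a b w nx} : a % 2 = 1 → nx < a → R a = 2 * nx + Bool.toNat b → L R nx w → L R a (b :: w)

theorem L.frame {R R' : ℕ → ℕ} {a w} (h : L R a w) (e : ∀ y ≤ a, y % 2 = 1 → R' y = R y) :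
    L R' a w := by
  induction h with
  | nil => exact .nil
  | cons h1 h2 h3 _ ih =>
    exact .cons h1 h2 ((e _ le_rfl h1).trans h3) (ih fun y hy => e y (by omega))

/-- the registers represent the stacks -/
structure Inv (K : ℕ) (R : ℕ → ℕ) (s : ℕ → Word) : Prop where
  bd : Bd K R
  zero : R 0 = 0
  two : R 4 = 2
  odd : R 2 % 2 = 1
  lt : ∀ i, R (2 * i + 10) < R 2
  rep : ∀ i, L R (R (2 * i + 10)) (s i)

theorem Inv.scratch {R s} (h : Inv K R s) {j v : ℕ} (hj : j = 6 ∨ j = 8) (hv : v ≤ K) :
    Inv K (update R j v) s := by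
  have e : ∀ i, update R j v (2 * i + 10) = R (2 * i + 10) := fun i => update_of_ne (by omega) _ _
  have e2 : update R j v 2 = R 2 := update_of_ne (by omega) _ _
  refine ⟨h.bd.upd j hv, ?_, ?_, ?_, fun i => ?_, fun i => ?_⟩
  · rw [update_of_ne (by omega)]; exact h.zero
  · rw [update_of_ne (by omega)]; exact h.two
  · rw [e2]; exact h.odd
  · rw [e, e2]; exact h.lt i
  · rw [e]; exact (h.rep i).frame fun y _ hy => update_of_ne (by omega) _ _

/-- push the bit in register `8` on the stack `i` -/
def cpush (i : ℕ) : List Instr :=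
  [.op .add 6 (2 * i + 10) (2 * i + 10), .op .add 6 6 8, .store 2 6, .op .land (2 * i + 10) 2 2,
    .op .add 2 2 4]

theorem go_push {l i R s} {b : Bool} (hA : At P l (cpush i)) (h : Inv K R s) (hb : R 8 = b.toNat)
    (hK : 2 * R 2 + 2 ≤ K) : ∃ R', Go P x K 5 l R (l + 5) R' ∧ Inv K R' (update s i (b :: s i)) ∧
      R' 2 = R 2 + 2 := by
  have h1 := h.lt i
  have h2 := h.odd
  have h3 := h.two
  have hb1 : b.toNat ≤ 1 := Bool.toNat_le b
  set q := R (2 * i + 10) with hq
  set f := R 2 with hf
  have B1 : Bd K (update R 6 (q + q)) := h.bd.upd _ (by omega)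
  have B2 : Bd K (update R 6 (2 * q + b.toNat)) := h.bd.upd _ (by omega)
  have B3 := B2.upd f (v := 2 * q + b.toNat) (by omega)
  have B4 := B3.upd (2 * i + 10) (v := f) (by omega)
  have B5 := B4.upd 2 (v := f + 2) (by omega)
  have n1 : (2 : ℕ) ≠ f := by omega
  have n2 : (4 : ℕ) ≠ f := by omega
  have E1 : (Instr.op .add 6 (2 * i + 10) (2 * i + 10)).regs 0 x R = update R 6 (q + q) := by
    simp [Instr.regs, Op.eval, hq]
  have E2 : (Instr.op .add 6 6 8).regs 0 x (update R 6 (q + q)) =
      update R 6 (2 * q + b.toNat) := by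
    simp [Instr.regs, Op.eval, hb, two_mul]
  have E3 : (Instr.store 2 6).regs 0 x (update R 6 (2 * q + b.toNat)) =
      update (update R 6 (2 * q + b.toNat)) f (2 * q + b.toNat) := by
    simp [Instr.regs, hf]
  have E4 : (Instr.op .land (2 * i + 10) 2 2).regs 0 x
      (update (update R 6 (2 * q + b.toNat)) f (2 * q + b.toNat)) =
      update (update (update R 6 (2 * q + b.toNat)) f (2 * q + b.toNat)) (2 * i + 10) f := by
    simp [Instr.regs, Op.eval, update_of_ne n1, ← hf]
  have E5 : (Instr.op .add 2 2 4).regs 0 x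
      (update (update (update R 6 (2 * q + b.toNat)) f (2 * q + b.toNat)) (2 * i + 10) f) =
      update (update (update (update R 6 (2 * q + b.toNat)) f (2 * q + b.toNat)) (2 * i + 10) f)
        2 (f + 2) := by
    have m1 : (2 : ℕ) ≠ 2 * i + 10 := by omega
    have m2 : (4 : ℕ) ≠ 2 * i + 10 := by omega
    simp [Instr.regs, Op.eval, update_of_ne n1, update_of_ne n2, update_of_ne m1, update_of_ne m2,
      ← hf, h3]
  refine ⟨_, .step hA.head (E1 ▸ B1) ?_, ⟨B5, ?_, ?_, ?_, fun j => ?_, fun j => ?_⟩, by simp⟩
  · rw [E1]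
    refine .step hA.tail.head (E2 ▸ B2) ?_
    rw [E2]
    refine .step hA.tail.tail.head (E3 ▸ B3) ?_
    rw [E3]
    refine .step hA.tail.tail.tail.head (E4 ▸ B4) ?_
    rw [E4]
    refine .step hA.tail.tail.tail.tail.head (E5 ▸ B5) ?_
    rw [E5]
    exact .refl _ _ _
  · rw [update_of_ne (by omega), update_of_ne (by omega), update_of_ne (by omega),
      update_of_ne (by omega)]; exact h.zero
  · rw [update_of_ne (by omega), update_of_ne (by omega), update_of_ne (by omega),
      update_of_ne (by omega)]; exact h3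
  · rw [update_self]; omega
  · rw [update_self, update_of_ne (by omega)]
    rcases eq_or_ne j i with rfl | e
    · rw [update_self]; omega
    · rw [update_of_ne (by omega), update_of_ne (by omega), update_of_ne (by omega)]
      have := h.lt j; omega
  · have fr : ∀ a w, a < f → L R a w → L (update (update (update (update R 6 (2 * q + b.toNat)) f
        (2 * q + b.toNat)) (2 * i + 10) f) 2 (f + 2)) a w := fun a w ha hw =>
      hw.frame fun y hy ho => by
        rw [update_of_ne (by omega), update_of_ne (by omega), update_of_ne (by omega),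
          update_of_ne (by omega)]
    rw [update_of_ne (by omega)]
    rcases eq_or_ne j i with rfl | e
    · rw [update_self, update_self]
      refine .cons h2 h1 ?_ (fr _ _ h1 (h.rep j))
      rw [update_of_ne (by omega), update_of_ne (by omega), update_self]
    · rw [update_of_ne (by omega), update_of_ne (by omega), update_of_ne (by omega),
        update_of_ne e]
      exact fr _ _ (h.lt j) (h.rep j)

/-- the length of the code -/
def len : Prog → ℕ
  | .skip => 0
  | .push _ _ => 6
  | .pop _ => 2
  | .query _ _ => 6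
  | .seq p q => len p + len q
  | .ite _ p q r => 4 + len r + 1 + len q + 1 + len p
  | .loop _ p => 1 + len p + 1

/-- the code of a stack program, placed at line `l` -/
def code : Prog → ℕ → List Instr
  | .skip, _ => []
  | .push i b, _ => .const 8 b.toNat :: cpush i
  | .pop i, _ => [.load 6 (2 * i + 10), .op .div (2 * i + 10) 6 4]
  | .query _ j, _ => .const 8 false.toNat :: cpush j
  | .seq p q, l => code p l ++ code q (l + len p)
  | .ite i p q r, l =>
      [.jz (2 * i + 10) (l + 4 + len r + 1 + len q + 1), .load 6 (2 * i + 10), .op .mod 6 6 4,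
        .jz 6 (l + 4 + len r + 1)] ++ (code r (l + 4) ++
        (.goto (l + 4 + len r + 1 + len q + 1 + len p) :: (code q (l + 4 + len r + 1) ++
        (.goto (l + 4 + len r + 1 + len q + 1 + len p) :: code p (l + 4 + len r + 1 + len q + 1)))))
  | .loop i p, l => .jz (2 * i + 10) (l + 1 + len p + 1) :: (code p (l + 1) ++ [.goto l])

theorem length_code (p : Prog) (l : ℕ) : (code p l).length = len p := by
  induction p generalizing l <;> simp [code, len, cpush, *] <;> omega

theorem ok_code (p : Prog) (l : ℕ) : ∀ a ∈ code p l, Ok a := by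
  induction p generalizing l with
  | skip => simp [code]
  | push i b => cases b <;> simp [code, cpush, Ok]
  | pop i => simp [code, Ok]
  | query i j => simp [code, cpush, Ok]
  | seq p q hp hq =>
    simp only [code, List.forall_mem_append]
    exact ⟨hp _, hq _⟩
  | ite i p q r hp hq hr =>
    simp only [code, List.forall_mem_append, List.forall_mem_cons]
    exact ⟨by simp [Ok], hr _, trivial, hq _, trivial, hp _⟩
  | loop i p hp =>
    simp only [code, List.forall_mem_append, List.forall_mem_cons]
    exact ⟨trivial, hp _, trivial, by simp⟩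

theorem L.nil_iff {R a w} (h : L R a w) : a = 0 ↔ w = [] := by
  cases h with
  | nil => simp
  | cons h1 h2 => constructor <;> intro e <;> simp_all

theorem go_cpush {l i R s} (b : Bool) (hA : At P l (.const 8 b.toNat :: cpush i)) (h : Inv K R s)
    (hK : 2 * R 2 + 2 ≤ K) : ∃ R', Go P x K 6 l R (l + 6) R' ∧ Inv K R' (update s i (b :: s i)) ∧
      R' 2 = R 2 + 2 := by
  have hb1 : b.toNat ≤ 1 := Bool.toNat_le b
  have h' := h.scratch (j := 8) (v := b.toNat) (.inr rfl) (by omega)
  have e2 : update R 8 b.toNat 2 = R 2 := update_of_ne (by omega) _ _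
  obtain ⟨R', g, i', e⟩ := go_push (x := x) (b := b) hA.tail h' (by simp) (by omega)
  have E : (Instr.const 8 b.toNat).regs 0 x R = update R 8 b.toNat := by simp [Instr.regs]
  exact ⟨R', .step hA.head (E ▸ h'.bd) (E ▸ g), i', by omega⟩

/-- the top bit -/
theorem go_top {l i j R s} (hA : At P l [.load 6 (2 * i + 10), .op .mod j 6 4]) (h : Inv K R s)
    (hK : 2 ≤ K) : ∃ v, Go P x K 2 l R (l + 2) (update (update R 6 v) j (v % 2)) ∧ v ≤ K ∧
      (v % 2 ≠ 0 ↔ (s i).head? = some true) := by
  have E1 : (Instr.load 6 (2 * i + 10)).regs 0 x R = update R 6 (R (R (2 * i + 10))) := by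
    simp [Instr.regs]
  have E2 : (Instr.op .mod j 6 4).regs 0 x (update R 6 (R (R (2 * i + 10)))) =
      update (update R 6 (R (R (2 * i + 10)))) j (R (R (2 * i + 10)) % 2) := by
    simp [Instr.regs, Op.eval, h.two]
  have B1 := h.bd.upd 6 (h.bd (R (2 * i + 10)))
  have B2 := B1.upd j (v := R (R (2 * i + 10)) % 2) (by omega)
  refine ⟨R (R (2 * i + 10)), .step hA.head (E1 ▸ B1) ?_, h.bd _, ?_⟩
  · rw [E1]
    refine .step hA.tail.head (E2 ▸ B2) ?_
    rw [E2]
    exact .refl _ _ _
  · have := h.rep i
    generalize R (2 * i + 10) = a at this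
    generalize s i = w at this
    cases this with
    | nil => simp [h.zero]
    | @cons _ b _ _ h1 h2 h3 => cases b <;> simp [h3]

theorem go_eval {p s t s'} (he : Eval ∅ p s t s') : ∀ l R, At P l (code p l) → Inv K R s →
    2 * (R 2 + 2 * t) + 2 ≤ K → ∃ R', Go P x K (6 * t) l R (l + len p) R' ∧ Inv K R' s' ∧
      R' 2 ≤ R 2 + 2 * t := by
  induction he with
  | skip s => exact fun l R _ h _ => ⟨R, .refl _ _ _, h, by omega⟩
  | push s i b =>
    intro l R hA h hK
    obtain ⟨R', g, i', e⟩ := go_cpush (x := x) b hA h (by omega)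
    exact ⟨R', g, i', by omega⟩
  | pop s i =>
    intro l R hA h hK
    have E1 : (Instr.load 6 (2 * i + 10)).regs 0 x R = update R 6 (R (R (2 * i + 10))) := by
      simp [Instr.regs]
    have E2 : (Instr.op .div (2 * i + 10) 6 4).regs 0 x (update R 6 (R (R (2 * i + 10)))) =
        update (update R 6 (R (R (2 * i + 10)))) (2 * i + 10) (R (R (2 * i + 10)) / 2) := by
      simp [Instr.regs, Op.eval, h.two]
    have h' := h.scratch (j := 6) (.inl rfl) (h.bd (R (2 * i + 10)))
    have hv := h.bd (R (2 * i + 10))
    have B2 := h'.bd.upd (2 * i + 10) (v := R (R (2 * i + 10)) / 2) (by omega)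
    have key : R (R (2 * i + 10)) / 2 ≤ R (2 * i + 10) ∧
        L R (R (R (2 * i + 10)) / 2) (s i).tail := by
      have := h.rep i
      generalize R (2 * i + 10) = a at this
      generalize s i = w at this
      cases this with
      | nil => simpa [h.zero] using L.nil
      | @cons _ b _ nx h1 h2 h3 h4 =>
        have hb1 : b.toNat ≤ 1 := Bool.toNat_le b
        rw [show R a / 2 = nx by omega]
        exact ⟨h2.le, h4⟩
    have e2 : update (update R 6 (R (R (2 * i + 10)))) (2 * i + 10) (R (R (2 * i + 10)) / 2) 2 =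
        R 2 := by rw [update_of_ne (by omega), update_of_ne (by omega)]
    refine ⟨_, Go.mono (t := 2) (.step hA.head (E1 ▸ h'.bd) ?_) (by omega),
      ⟨B2, ?_, ?_, ?_, fun j => ?_, fun j => ?_⟩, by omega⟩
    · rw [E1]
      refine .step hA.tail.head (E2 ▸ B2) ?_
      rw [E2]
      exact .refl _ _ _
    · rw [update_of_ne (by omega)]; exact h'.zero
    · rw [update_of_ne (by omega)]; exact h'.two
    · rw [e2]; exact h.odd
    · rw [e2]
      rcases eq_or_ne j i with rfl | e
      · rw [update_self]; exact key.1.trans_lt (h.lt j)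
      · rw [update_of_ne (by omega), update_of_ne (by omega)]; exact h.lt j
    · have fr : ∀ a w, L R a w → L (update (update R 6 (R (R (2 * i + 10)))) (2 * i + 10)
          (R (R (2 * i + 10)) / 2)) a w := fun a w hw => hw.frame fun y hy ho => by
        rw [update_of_ne (by omega), update_of_ne (by omega)]
      rcases eq_or_ne j i with rfl | e
      · rw [update_self, update_self]; exact fr _ _ key.2
      · rw [update_of_ne (by omega), update_of_ne (by omega), update_of_ne e]
        exact fr _ _ (h.rep j)
  | query_yes s i j hq => exact hq.elim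
  | query_no s i j hq =>
    intro l R hA h hK
    obtain ⟨R', g, i', e⟩ := go_cpush (x := x) false hA h (by omega)
    exact ⟨R', g, i', by omega⟩
  | @seq p q s s' s'' t t' _ _ ih1 ih2 =>
    intro l R hA h hK
    obtain ⟨R1, g1, i1, e1⟩ := ih1 l R hA.left h (by omega)
    obtain ⟨R2, g2, i2, e2⟩ := ih2 (l + len p) R1 (length_code p l ▸ hA.right) i1 (by omega)
    exact ⟨R2, by rw [len, ← add_assoc, mul_add]; exact g1.trans g2, i2, by omega⟩
  | @ite_nil p q r s s' t i hs _ ih =>
    intro l R hA h hK
    have a1 := hA.right.right.tail.right.tail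
    simp only [length_code, List.length_cons, List.length_nil] at a1
    obtain ⟨R1, g1, i1, e1⟩ := ih _ R a1 h (by omega)
    refine ⟨R1, Go.mono (t := 6 * t + 1) (.step hA.left.head h.bd ?_) (by omega), i1, by omega⟩
    simp only [Instr.next, Instr.regs, (h.rep i).nil_iff.2 hs, if_true, len]
    convert g1 using 1
    omega
  | @ite_false p q r s s' t i hs _ ih =>
    intro l R hA h hK
    have a1 := hA.right.right.tail
    simp only [length_code, List.length_cons, List.length_nil] at a1
    have a2 := a1.right.head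
    rw [length_code] at a2
    obtain ⟨v, g0, hv, e0⟩ := go_top (x := x) (i := i) (j := 6)
      (At.left (d := [_]) hA.left.tail) h (by omega)
    rw [update_idem] at g0
    have h' := h.scratch (j := 6) (v := v % 2) (.inl rfl) (by omega)
    have e2 : update R 6 (v % 2) 2 = R 2 := update_of_ne (by omega) _ _
    obtain ⟨R1, g1, i1, e1⟩ := ih _ _ a1.left h' (by omega)
    have hne : R (2 * i + 10) ≠ 0 := fun e => by simp [(h.rep i).nil_iff.1 e] at hs
    have hz : v % 2 = 0 := by by_contra e; simp [e0.1 e] at hs
    refine ⟨R1, Go.mono (t := 2 + (6 * t + 1 + 1) + 1) (.step hA.left.head h.bd ?_) (by omega), i1,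
      by omega⟩
    simp only [Instr.next, Instr.regs, hne, if_false]
    refine g0.trans (.step hA.left.tail.tail.tail.head h'.bd ?_)
    simp only [Instr.next, Instr.regs, update_self, hz, if_true]
    rw [← hz]
    refine g1.trans (.step a2 i1.bd ?_)
    simp only [Instr.next, Instr.regs, len]
    convert Go.refl _ _ _ using 1
    omega
  | @ite_true p q r s s' t i hs _ ih =>
    intro l R hA h hK
    have a1 := hA.right
    simp only [List.length_cons, List.length_nil] at a1
    have a2 := a1.right.head
    rw [length_code] at a2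
    obtain ⟨v, g0, hv, e0⟩ := go_top (x := x) (i := i) (j := 6)
      (At.left (d := [_]) hA.left.tail) h (by omega)
    rw [update_idem] at g0
    have h' := h.scratch (j := 6) (v := v % 2) (.inl rfl) (by omega)
    have e2 : update R 6 (v % 2) 2 = R 2 := update_of_ne (by omega) _ _
    obtain ⟨R1, g1, i1, e1⟩ := ih _ _ a1.left h' (by omega)
    have hne : R (2 * i + 10) ≠ 0 := fun e => by simp [(h.rep i).nil_iff.1 e] at hs
    have hz : v % 2 ≠ 0 := e0.2 hs
    refine ⟨R1, Go.mono (t := 2 + (6 * t + 1 + 1) + 1) (.step hA.left.head h.bd ?_) (by omega), i1,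
      by omega⟩
    simp only [Instr.next, Instr.regs, hne, if_false]
    refine g0.trans (.step hA.left.tail.tail.tail.head h'.bd ?_)
    simp only [Instr.next, Instr.regs, update_self, hz, if_false]
    refine g1.trans (.step a2 i1.bd ?_)
    simp only [Instr.next, Instr.regs, len]
    convert Go.refl _ _ _ using 1
    omega
  | @loop_stop p s i hs =>
    intro l R hA h hK
    refine ⟨R, Go.mono (t := 1) (.step hA.head h.bd ?_) (by omega), h, by omega⟩
    simp only [Instr.next, Instr.regs, (h.rep i).nil_iff.2 hs, if_true, len]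
    convert Go.refl _ _ _ using 1
    omega
  | @loop_step p s s' s'' t t' i hs _ _ ih1 ih2 =>
    intro l R hA h hK
    obtain ⟨R1, g1, i1, e1⟩ := ih1 _ R hA.tail.left h (by omega)
    obtain ⟨R2, g2, i2, e2⟩ := ih2 l R1 hA i1 (by omega)
    have a2 := hA.tail.right.head
    rw [length_code] at a2
    have hne : R (2 * i + 10) ≠ 0 := fun e => hs ((h.rep i).nil_iff.1 e)
    refine ⟨R2, Go.mono (t := 6 * t + (6 * t' + 1) + 1) (.step hA.head h.bd ?_) (by omega), i2,
      by omega⟩
    simp only [Instr.next, Instr.regs, hne, if_false]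
    exact g1.trans (.step a2 i1.bd g2)

/-- the loop which reads the input and pushes it on the stack `1` -/
def cread : List Instr :=
  [.op .div 6 2 4, .read 8 6, .op .div 6 8 4, .jz 6 8, .goto 14] ++ (cpush 1 ++ [.goto 3])

theorem go_read (hA : At P 3 cread) : ∀ (d j : ℕ) (R : ℕ → ℕ), j + d = x.length →
    Inv K R (update (fun _ => []) 1 (x.take j).reverse) → R 2 = 2 * j + 1 →
    4 * x.length + 4 ≤ K → ∃ R', Go P x K (10 * d + 5) 3 R 14 R' ∧
      Inv K R' (update (fun _ => []) 1 x.reverse) ∧ R' 2 = 2 * x.length + 1 := by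
  have pre : ∀ (j : ℕ) (R : ℕ → ℕ) s, j ≤ x.length → Inv K R s → R 2 = 2 * j + 1 →
      4 * x.length + 4 ≤ K → ∃ R', Go P x K 3 3 R 6 R' ∧ Inv K R' s ∧ R' 2 = R 2 ∧
        R' 8 = inputAt x j ∧ R' 6 = inputAt x j / 2 := by
    intro j R s hj h h2 hK
    have hv : inputAt x j ≤ 2 := by
      unfold inputAt
      split
      · exact (Bool.toNat_le _).trans (by omega)
      · exact le_rfl
    have i1 := h.scratch (j := 6) (v := j) (.inl rfl) (by omega)
    have i2 := i1.scratch (j := 8) (v := inputAt x j) (.inr rfl) (by omega)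
    have i3 := i2.scratch (j := 6) (v := inputAt x j / 2) (.inl rfl) (by omega)
    have E1 : (Instr.op .div 6 2 4).regs 0 x R = update R 6 j := by
      simp only [Instr.regs, Op.eval, h.two, h2, Nat.mod_zero]
      congr 1
      omega
    have E2 : (Instr.read 8 6).regs 0 x (update R 6 j) = update (update R 6 j) 8 (inputAt x j) := by
      simp [Instr.regs]
    have E3 : (Instr.op .div 6 8 4).regs 0 x (update (update R 6 j) 8 (inputAt x j)) =
        update (update (update R 6 j) 8 (inputAt x j)) 6 (inputAt x j / 2) := by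
      simp [Instr.regs, Op.eval, h.two]
    refine ⟨_, .step hA.left.head (E1 ▸ i1.bd) ?_, i3, by simp, by simp, by simp⟩
    rw [E1]
    refine .step hA.left.tail.head (E2 ▸ i2.bd) ?_
    rw [E2]
    refine .step hA.left.tail.tail.head (E3 ▸ i3.bd) ?_
    rw [E3]
    exact .refl _ _ _
  intro d
  induction d with
  | zero =>
    intro j R hj h h2 hK
    obtain ⟨R1, g, i1, e2, -, e6⟩ := pre j R _ (by omega) h h2 hK
    obtain rfl : j = x.length := by omega
    rw [List.take_length] at i1
    have : R1 6 ≠ 0 := by simp [e6, inputAt]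
    refine ⟨R1, g.trans (t' := 2) (.step hA.left.tail.tail.tail.head i1.bd ?_), i1, by omega⟩
    simp only [Instr.next, Instr.regs, this, if_false]
    exact .step hA.left.tail.tail.tail.tail.head i1.bd (.refl _ _ _)
  | succ d ih =>
    intro j R hj h h2 hK
    obtain ⟨R1, g, i1, e2, e8, e6⟩ := pre j R _ (by omega) h h2 hK
    have hj' : j < x.length := by omega
    have hx : inputAt x j = (x[j]).toNat := by simp [inputAt, hj']
    have hb := Bool.toNat_le x[j]
    have hz : R1 6 = 0 := by omega
    obtain ⟨R2, g2, i2, f2⟩ := go_push (x := x) (b := x[j]) hA.right.left i1 (e8.trans hx) (by omega)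
    rw [update_idem, update_self, ← List.reverse_concat, ← List.take_succ_eq_append_getElem hj'] at i2
    obtain ⟨R3, g3, i3, f3⟩ := ih (j + 1) R2 (by omega) i2 (by omega) hK
    refine ⟨R3, (g.trans (t' := 5 + (10 * d + 5 + 1) + 1)
      (.step hA.left.tail.tail.tail.head i1.bd ?_)).mono (by omega), i3, f3⟩
    simp only [Instr.next, Instr.regs, hz, if_true]
    exact g2.trans (.step hA.right.right.head i2.bd g3)

/-- One RAM program, for the three models, simulates the stack program `p`. -/
theorem exists_ram (p : Prog) : ∃ (P : List Instr) (K : ℕ), (∀ M : Model, ∀ a ∈ P, M.Allows a) ∧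
    ∀ (M : Model) (n : ℕ) (x : Word) (t : ℕ) (σ : ℕ → Word), Runs ∅ p (start x []) t σ →
      (M.modulus n = 0 ∨ K * (t + x.length + 1) < M.modulus n) →
      ∃ (s : ℕ) (c : Cfg), (P310Z.step M P n x)^[s] (startCfg n) = c ∧ P.length ≤ c.pc ∧
        c.time ≤ K * (t + x.length + 1) ^ 2 ∧ (c.reg 0 ≠ 0 ↔ (σ 1).head? = some true) := by
  set q : Prog := .seq (.mv 1 0) p with hq
  set P : List Instr := [.const 0 0, .const 2 1, .const 4 2] ++ (cread ++ (code q 14 ++
    [.load 6 (2 * 1 + 10), .op .mod 0 6 4])) with hP
  have hok : ∀ a ∈ P, Ok a := by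
    simp only [hP, List.forall_mem_append]
    exact ⟨by simp [Ok], by simp [cread, cpush, Ok], ok_code _ _, by simp [Ok]⟩
  refine ⟨P, 2000, fun M a ha => (hok a ha).allows M, fun M n x t σ hr hm => ?_⟩
  set z := t + x.length + 1 with hz
  have hA : At P 0 P := fun j a e => by simpa using e
  have hA1 : At P 3 cread := (hP ▸ hA).right.left
  have hA2 : At P 14 (code q 14) := (hP ▸ hA).right.right.left
  have hA3 : At P (14 + len q) _ := length_code q 14 ▸ (hP ▸ hA).right.right.right
  have hlen : P.length = 14 + len q + 2 := by simp [hP, cread, cpush, length_code]; omega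
  set R0 : ℕ → ℕ := fun _ => 0 with hR0
  set R2 := update (update R0 2 1) 4 2 with hR2
  have B0 : Bd (20 * z) R0 := fun _ => Nat.zero_le _
  have B1 := B0.upd 2 (v := 1) (by omega)
  have B2 : Bd (20 * z) R2 := B1.upd 4 (v := 2) (by omega)
  have g0 : Go P x (20 * z) 2 1 R0 3 R2 :=
    .step (a := .const 2 1) rfl B1 (.step (a := .const 4 2) rfl B2 (.refl _ _ _))
  have e10 : ∀ i, R2 (2 * i + 10) = 0 := fun i => by
    rw [hR2, update_of_ne (by omega), update_of_ne (by omega)]
  have i0 : Inv (20 * z) R2 (update (fun _ => []) 1 (x.take 0).reverse) :=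
    ⟨B2, rfl, rfl, rfl, fun i => by rw [e10]; exact Nat.one_pos, fun i => by
      rw [e10, List.take_zero, List.reverse_nil, update_eq_self]; exact .nil⟩
  obtain ⟨R3, g3, i3, f3⟩ := go_read hA1 x.length 0 R2 (by omega) i0 rfl (by omega)
  have r1 := Runs.mv (A := ∅) (s := update (fun _ => []) 1 x.reverse) (i := 1) (j := 0) (by omega)
  have es : update (update (update (fun _ => ([] : Word)) 1 x.reverse) 1 []) 0
      ((update (fun _ => ([] : Word)) 1 x.reverse 1).reverse ++
        update (fun _ => ([] : Word)) 1 x.reverse 0) = start x [] := by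
    funext i
    rcases eq_or_ne i 0 with rfl | e
    · simp [start]
    · rcases eq_or_ne i 1 with rfl | e' <;> simp [start, *]
  rw [es] at r1
  obtain ⟨u, hu, he⟩ := r1.seq hr
  rw [update_self, List.length_reverse] at hu
  obtain ⟨R4, g4, i4, -⟩ := go_eval (x := x) he 14 R3 hA2 i3 (by omega)
  obtain ⟨v, g5, -, hv⟩ := go_top (x := x) hA3 i4 (by omega)
  have hm' : ∀ y ≤ 20 * z, y % M.modulus n = y := fun y hy => by
    rcases hm with e | e
    · rw [e, Nat.mod_zero]
    · exact Nat.mod_eq_of_lt (by omega)
  obtain ⟨s, τ, e, hτ⟩ := (((g0.trans g3).trans g4).trans g5).run hok (by omega) M n hm' B0 1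
  refine ⟨s + 1, ⟨14 + len q + 2, update (update R4 6 v) 0 (v % 2), τ⟩, ?_, hlen.le, ?_,
    by simpa using hv⟩
  · rw [iterate_succ_apply, ← e]
    congr 1
    have h0 : P[0]? = some (.const 0 0) := rfl
    simp only [P310Z.step, startCfg, h0, Instr.next, Instr.regs, Nat.zero_mod]
    congr 1
    · funext i
      rcases eq_or_ne i 0 with rfl | e <;> simp [*]
    · cases M <;> simp [Model.cost, Instr.operands]
  · have h1 : (2 + (10 * x.length + 5) + 6 * u + 2) * (1 + 2 * (20 * z)) ≤ (40 * z) * (41 * z) :=
      Nat.mul_le_mul (by omega) (by omega)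
    have h2 : 1 ≤ z * z := Nat.mul_pos (by omega) (by omega)
    show τ ≤ _
    nlinarith

end Vale.Agent.P310R43
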